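import Vale.Agent.P097W2.H2D

/-!
# P097W2: the envelope of the loss function and its local peaks
-/

set_option linter.all false

noncomputable section

namespace Vale.Agent.P097W

open Set

/-- the envelope `a` of `η u / u` (placed at the depth `η u`) -/
structure Envl (η : ℝ → ℝ) (u₀ : ℝ) (m N : ℕ) (a : ℝ → ℝ) : Prop where
  one : ∀ t, 1 ≤ a t
  dec : Dec N a
  grow : ∀ s t : ℝ, 0 < t → t ≤ s → a t * t ^ m ≤ a s * s ^ m
  low : ∀ u ∈ Ioo 0 u₀, 0 < η u → η u ≤ a (η u) * u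
  en : ∀ τ L v : ℝ, 0 < τ → 1 ≤ L → v ∈ Ioo 0 u₀ → v * a τ * L ^ (m + 1) ≤ τ → η v ≤ 2 * τ / L
  peak : ∀ t : ℝ, 0 < t → 1 < a t → ∃ u ∈ Ioo 0 u₀, 0 < η u ∧ a (η u) * u ≤ 2 * η u ∧
    a t ^ N * η u ≤ (2 * η u / u) ^ N * t ∧ a t * t ^ m ≤ 2 * η u / u * η u ^ m

namespace Ev

/-- the shape -/
def w (β : ℝ) (m : ℕ) (x : ℝ) : ℝ := min (x ^ (-β)) (x ^ m)

theorem w_pos {β : ℝ} {m : ℕ} {x : ℝ} (hx : 0 < x) : 0 < w β m x :=
  lt_min (Real.rpow_pos_of_pos hx _) (pow_pos hx m)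

theorem w_mul {β : ℝ} {m : ℕ} {x y : ℝ} (hx : 0 < x) (hy : 0 < y) :
    w β m x * w β m y ≤ w β m (x * y) := by
  refine le_min ?_ ?_
  · rw [Real.mul_rpow hx.le hy.le]
    exact mul_le_mul (min_le_left _ _) (min_le_left _ _) (w_pos hy).le
      (Real.rpow_pos_of_pos hx _).le
  · rw [mul_pow]
    exact mul_le_mul (min_le_right _ _) (min_le_right _ _) (w_pos hy).le (pow_pos hx m).le

theorem w_ge {β : ℝ} {m : ℕ} {x : ℝ} (hβ : 0 ≤ β) (hx : 1 ≤ x) : w β m x = x ^ (-β) :=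
  min_eq_left ((Real.rpow_le_one_of_one_le_of_nonpos hx (by linarith)).trans (one_le_pow₀ hx))

theorem w_le {β : ℝ} {m : ℕ} {x : ℝ} (hβ : 0 ≤ β) (h0 : 0 < x) (hx : x ≤ 1) : w β m x = x ^ m :=
  min_eq_right ((pow_le_one₀ h0.le hx).trans
    (Real.one_le_rpow_of_pos_of_le_one_of_nonpos h0 hx (by linarith)))

theorem w_one {β : ℝ} {m : ℕ} : w β m 1 = 1 := by simp [w]

end Ev

open Ev in
theorem envl (η : ℝ → ℝ) (u₀ C : ℝ) (m N : ℕ) (hN : 2 ≤ N) (h0 : ∀ v ∈ Ioo 0 u₀, 0 ≤ η v)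
    (hC : ∀ v ∈ Ioo 0 u₀, η v ^ (m + 1) ≤ C * v) : ∃ a, Envl η u₀ m N a := by
  have N0 : (0 : ℝ) < N := by positivity
  have N2 : (2 : ℝ) ≤ N := by exact_mod_cast hN
  set β : ℝ := (N : ℝ)⁻¹ with hβ
  have β0 : 0 < β := by positivity
  have βN : β * N = 1 := inv_mul_cancel₀ N0.ne'
  have β1 : β ≤ 1 / 2 := by nlinarith
  set S : ℝ → Set ℝ := fun t => {y | ∃ u ∈ Ioo 0 u₀, 0 < η u ∧ y = η u / u * w β m (η u / t)}
    with hS
  have bd : ∀ t, 0 < t → BddAbove (S t) := by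
    intro t t0
    refine ⟨C / t ^ m, ?_⟩
    rintro _ ⟨u, hu, e0, rfl⟩
    have u0 := hu.1
    calc _ ≤ η u / u * (η u / t) ^ m := by gcongr; exact min_le_right _ _
      _ = η u ^ (m + 1) / u / t ^ m := by rw [div_pow]; field_simp; ring
      _ ≤ C / t ^ m := by gcongr; rw [div_le_iff₀ u0]; exact hC u hu
  set a : ℝ → ℝ := fun t => max 1 (sSup (S t)) with ha
  have one : ∀ t, 1 ≤ a t := fun t => le_max_left _ _
  have ge : ∀ t, 0 < t → ∀ u ∈ Ioo 0 u₀, 0 < η u → η u / u * w β m (η u / t) ≤ a t :=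
    fun t t0 u hu e0 => (le_csSup (bd t t0) ⟨u, hu, e0, rfl⟩).trans (le_max_right _ _)
  have le : ∀ t b, 1 ≤ b → (∀ u ∈ Ioo 0 u₀, 0 < η u → η u / u * w β m (η u / t) ≤ b) → a t ≤ b :=
    fun t b b1 h => max_le b1 (Real.sSup_le (by rintro _ ⟨u, hu, e0, rfl⟩; exact h u hu e0)
      (by linarith))
  have cmp : ∀ s t, 0 < s → 0 < t → ∀ u ∈ Ioo 0 u₀, 0 < η u →
      η u / u * w β m (η u / s) * w β m (s / t) ≤ a t := by
    intro s t s0 t0 u hu e0
    have u0 := hu.1
    refine le_trans ?_ (ge t t0 u hu e0)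
    rw [mul_assoc]
    have := w_mul (β := β) (m := m) (div_pos e0 s0) (div_pos s0 t0)
    rw [show η u / s * (s / t) = η u / t by field_simp] at this
    gcongr
  have cmp' : ∀ s t, 0 < s → 0 < t → a s * w β m (s / t) ≤ a t := by
    intro s t s0 t0
    have w0 := w_pos (β := β) (m := m) (div_pos s0 t0)
    have w1 : w β m (s / t) ≤ 1 := by
      rcases le_total 1 (s / t) with h | h
      · rw [w_ge β0.le h]; exact Real.rpow_le_one_of_one_le_of_nonpos h (by linarith)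
      · rw [w_le β0.le (div_pos s0 t0) h]; exact pow_le_one₀ (div_pos s0 t0).le h
    rw [← le_div_iff₀ w0]
    refine le s _ ?_ fun u hu e0 => ?_
    · rw [le_div_iff₀ w0]; linarith [one t]
    · rw [le_div_iff₀ w0]; exact cmp s t s0 t0 u hu e0
  refine ⟨a, one, dec_of_rpow (β := β) (fun t => by linarith [one t]) βN.le fun s t t0 ts => ?_,
    fun s t t0 ts => ?_, fun u hu e0 => ?_, fun τ L v τ0 L1 hv h => ?_, fun t t0 h1 => ?_⟩
  · have s0 : 0 < s := by linarith
    have q1 : 1 ≤ s / t := (one_le_div t0).2 ts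
    have := cmp' s t s0 t0
    rwa [w_ge β0.le q1, Real.rpow_neg (by linarith), ← div_eq_mul_inv,
      div_le_iff₀ (Real.rpow_pos_of_pos (by linarith) _)] at this
  · have s0 : 0 < s := by linarith
    have := cmp' t s t0 s0
    rwa [w_le β0.le (div_pos t0 s0) ((div_le_one s0).2 ts), div_pow, ← mul_div_assoc,
      div_le_iff₀ (pow_pos s0 m)] at this
  · have := ge _ e0 u hu e0
    rwa [div_self e0.ne', w_one, mul_one, div_le_iff₀ hu.1] at this
  · by_contra k
    push Not at k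
    have L0 : 0 < L := by linarith
    have e0 : 0 < η v := lt_trans (by positivity) k
    have v0 := hv.1
    have g1 := ge τ τ0 v hv e0
    rw [div_lt_iff₀ L0] at k
    have g2 : η v * w β m (η v / τ) * L ^ (m + 1) ≤ τ := by
      refine le_trans ?_ h
      have : η v * w β m (η v / τ) = v * (η v / v * w β m (η v / τ)) := by field_simp
      rw [this]
      gcongr
    rcases le_total 1 (η v / τ) with c | c
    · rw [w_ge β0.le c] at g2
      obtain ⟨x, hx⟩ : ∃ x, x = η v / τ := ⟨_, rfl⟩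
      have ex : η v = x * τ := by rw [hx]; field_simp
      rw [← hx] at g2 c
      rw [ex] at g2 k
      have x0 : 0 < x := by linarith
      have p1 : x ^ (-(1 / 2) : ℝ) ≤ x ^ (-β) := Real.rpow_le_rpow_of_exponent_le c (by linarith)
      obtain ⟨y, hy⟩ : ∃ y, y = x ^ (-(1 / 2) : ℝ) := ⟨_, rfl⟩
      have y0 : 0 < y := hy ▸ Real.rpow_pos_of_pos x0 _
      have y2 : y * y * x = 1 := by
        rw [hy, ← Real.rpow_add x0]
        norm_num
        rw [Real.rpow_neg_one]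
        field_simp
      have Lp : L ≤ L ^ (m + 1) := le_self_pow₀ L1 (by omega)
      have g3 : x * y * L ≤ 1 := by
        refine le_of_mul_le_mul_right (le_trans ?_ (g2.trans (one_mul τ).ge)) τ0
        rw [← hy] at p1
        calc x * y * L * τ = x * τ * y * L := by ring
          _ ≤ _ := by gcongr
      have k2 : 2 < x * L := lt_of_mul_lt_mul_right (by linarith) τ0.le
      have g4 : (x * y * L) ^ 2 ≤ 1 := pow_le_one₀ (by positivity) g3
      have : (x * y * L) ^ 2 = x * L * L := by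
        calc _ = y * y * x * (x * L * L) := by ring
          _ = _ := by rw [y2, one_mul]
      nlinarith
    · rw [w_le β0.le (div_pos e0 τ0) c] at g2
      have e : η v * (η v / τ) ^ m * L ^ (m + 1) = (η v * L / τ) ^ (m + 1) * τ := by
        rw [div_pow, div_pow, mul_pow]; field_simp; ring
      have k2 : 1 < η v * L / τ := by rw [lt_div_iff₀ τ0]; linarith
      have := one_lt_pow₀ k2 (show m + 1 ≠ 0 by omega)
      rw [e] at g2
      nlinarith
  · have e : a t = sSup (S t) := by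
      rcases max_choice 1 (sSup (S t)) with c | c
      · exact absurd (c ▸ h1 : (1 : ℝ) < 1) (lt_irrefl _)
      · exact c
    have ne : (S t).Nonempty := by
      by_contra k
      rw [not_nonempty_iff_eq_empty] at k
      rw [k, Real.sSup_empty] at e
      linarith
    obtain ⟨_, ⟨u, hu, e0, rfl⟩, hlt⟩ := exists_lt_of_lt_csSup ne
      (show a t / 2 < sSup (S t) by linarith)
    have u0 := hu.1
    have q0 := div_pos e0 t0
    have w0 := w_pos (β := β) (m := m) q0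
    have A0 : 0 < η u / u := div_pos e0 u0
    have b0 : a t ≤ 2 * η u / u * w β m (η u / t) := by rw [mul_div_assoc]; linarith
    refine ⟨u, hu, e0, ?_, ?_, ?_⟩
    · have := (cmp' _ t e0 t0).trans b0
      rw [← le_div_iff₀ u0]
      exact le_of_mul_le_mul_right this w0
    · have b1 : a t ≤ 2 * η u / u * (η u / t) ^ (-β) :=
        b0.trans (by gcongr; exact min_le_left _ _)
      have b2 := pow_le_pow_left₀ (by linarith) b1 N
      rw [mul_pow, ← Real.rpow_natCast ((η u / t) ^ (-β)), ← Real.rpow_mul q0.le, neg_mul, βN,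
        Real.rpow_neg_one, inv_div, ← mul_div_assoc, le_div_iff₀ e0] at b2
      exact b2
    · have b1 : a t ≤ 2 * η u / u * (η u / t) ^ m := b0.trans (by gcongr; exact min_le_right _ _)
      rwa [div_pow, ← mul_div_assoc, le_div_iff₀ (pow_pos t0 m)] at b1

/-- the envelope is admissible for `h2d` -/
theorem Envl.env0 {η : ℝ → ℝ} {u₀ τ₀ : ℝ} {m N : ℕ} {a : ℝ → ℝ} (E : Envl η u₀ m N a)
    {R : ℝ → ℝ → Prop} (hR : ∀ u ∈ Ioo 0 u₀, ∀ e, η u ≤ e → R u e) (h : τ₀ < u₀) :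
    Env0 R (m + 1) τ₀ a := by
  refine ⟨E.one, fun τ τ0 τ1 L u L1 u0 k => ?_⟩
  have a1 := E.one τ
  have p1 : 1 ≤ a τ * L ^ (m + 1) := one_le_mul_of_one_le_of_one_le a1 (one_le_pow₀ L1)
  have hu : u ∈ Ioo 0 u₀ := ⟨u0, by rw [mul_assoc] at k; nlinarith⟩
  exact hR u hu _ (E.en τ L u τ0 L1 hu k)

end Vale.Agent.P097W
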