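import Vale.Agent.P097W.All

/-!
# P097W2: moments relative to weights which may decay slowly after a peak
-/

set_option linter.all false

noncomputable section

namespace Vale.Agent.P097W

open Filter Topology Set Metric MeasureTheory
open Vale.Agent.P097T (Strip)
open Vale.Agent.P097Top (Cur law)
open Vale.Agent.P097K (Lv Few)
open Vale.Agent.P097M
open Vale.Agent.P097M.Fin

/-- towards the boundary the weight decays at most like `t ^ (1 / N)` -/
def Dec (N : ℕ) (a : ℝ → ℝ) : Prop := ∀ s t : ℝ, 0 < t → t ≤ s → a s ^ N * t ≤ a t ^ N * s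

/-- the envelope at all small depths, no monotonicity -/
def Env0 (R : ℝ → ℝ → Prop) (m : ℕ) (τ₀ : ℝ) (a : ℝ → ℝ) : Prop :=
  (∀ t, 1 ≤ a t) ∧ ∀ τ, 0 < τ → τ ≤ τ₀ → En R m τ (a τ)

/-- the moment of order `p` relative to the weights of a family, with one constant -/
def MomP (r : ℝ) (g Q : ℂ → ℂ) (F : Set (ℝ → ℝ)) (p : ℕ) : Prop := ∃ C : ℝ, ∀ a ∈ F,
  ∀ (k : ℕ) (l : ℝ), 1 ≤ l → Few r {y | y ∈ Strip r ∧
    l * a (r - |y.im|) ^ 2 ≤ Gs g Q y * (r - |y.im|) ^ 2} k (C / l ^ p)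

def Spec_H2D : Prop := ∀ (r c τ₀ : ℝ) (θ H Q : ℂ → ℂ) (m : ℕ), Cur r c θ H Q → 1 ≤ m → 0 < τ₀ →
  ∀ p : ℕ, ∃ N : ℕ, 8 ≤ N ∧ MomP r (deriv θ) Q {a | Env0 (Rch θ H r) m τ₀ a ∧ Dec N a} p

theorem Dec.mono {N N' : ℕ} {a : ℝ → ℝ} (h : Dec N' a) (h1 : ∀ t, 1 ≤ a t) (e : N ≤ N') :
    Dec N a := by
  intro s t t0 ts
  have s0 : 0 < a s := lt_of_lt_of_le one_pos (h1 s)
  have u0 : 0 < a t := lt_of_lt_of_le one_pos (h1 t)
  rcases le_total (a s) (a t) with c | c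
  · gcongr
  · obtain ⟨d, rfl⟩ := Nat.exists_eq_add_of_le e
    have k := h s t t0 ts
    rw [pow_add, pow_add] at k
    have b : a t ^ d ≤ a s ^ d := by gcongr
    have p0 : 0 < a s ^ d := by positivity
    have : a s ^ N * t * a s ^ d ≤ a t ^ N * s * a s ^ d := by
      calc _ = a s ^ N * a s ^ d * t := by ring
        _ ≤ a t ^ N * a t ^ d * s := k
        _ ≤ a t ^ N * a s ^ d * s := by have : 0 < s := by linarith
                                        gcongr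
        _ = _ := by ring
    exact le_of_mul_le_mul_right this p0

/-- the form with a real exponent -/
theorem dec_of_rpow {N : ℕ} {β : ℝ} {a : ℝ → ℝ} (h0 : ∀ t, 0 ≤ a t) (hβ : β * N ≤ 1)
    (h : ∀ s t : ℝ, 0 < t → t ≤ s → a s ≤ a t * (s / t) ^ β) : Dec N a := by
  intro s t t0 ts
  have q1 : 1 ≤ s / t := (one_le_div t0).2 ts
  have k : a s ^ N ≤ a t ^ N * (s / t) := by
    calc _ ≤ (a t * (s / t) ^ β) ^ N := pow_le_pow_left₀ (h0 s) (h s t t0 ts) N
      _ = a t ^ N * (s / t) ^ (β * N) := by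
          rw [mul_pow, Real.rpow_mul (by linarith), Real.rpow_natCast]
      _ ≤ a t ^ N * (s / t) ^ (1 : ℝ) := by
          have := h0 t
          gcongr
      _ = _ := by rw [Real.rpow_one]
  rw [← mul_div_assoc, le_div_iff₀ t0] at k
  exact k

theorem MomP.mono {r : ℝ} {g Q : ℂ → ℂ} {F F' : Set (ℝ → ℝ)} {p : ℕ} (h : MomP r g Q F p)
    (e : F' ⊆ F) : MomP r g Q F' p := let ⟨C, hC⟩ := h; ⟨C, fun a ha => hC a (e ha)⟩

open Rec Finset in
theorem rec1 (n₀ w p : ℕ) (C₁ : ℝ) (hC : 1 ≤ C₁) : ∃ ε : ℝ, 0 < ε ∧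
    ∀ (F : Set (ℕ → ℤ → ℝ)) (b : ℕ → ℝ) (L k₀ : ℕ) (A : ℝ),
    (∀ ν ∈ F, ∀ k i, 0 ≤ ν k i ∧ ν k i ≤ b k) →
    (∀ ν ∈ F, ∀ (k : ℕ) (i : ℤ), ν k (i + n₀ * 2 ^ k) = ν k i) → 1 ≤ L →
    (∀ ν ∈ F, ∀ k : ℕ, k₀ ≤ k → ∀ (i : ℤ) (M : ℝ), A ≤ M → 0 ≤ M →
      (∀ j ≤ k, ∀ m : ℤ, |m| ≤ w → 2 * ν j (i / 2 ^ (k - j) + m) ^ 2 ≤ M ^ 4 * 2 ^ (k - j)) →
      (∀ m < 2 ^ L, ν (k + L) (i * 2 ^ L + (m : ℕ)) ≤ C₁ * M ^ 2) ∧
        ∑ m ∈ Finset.range (2 ^ L), ν (k + L) (i * 2 ^ L + (m : ℕ)) ≤ ε * 2 ^ L * M ^ 2) →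
    ∃ C : ℝ, ∀ ν ∈ F, ∀ k : ℕ,
      ∑ i ∈ Finset.range (n₀ * 2 ^ k), ν k (i : ℕ) ^ (2 * p + 2) ≤ C * 2 ^ k := by
  set K : ℝ := C₁ ^ (2 * p + 1) with hK
  have K0 : 0 < K := by positivity
  set D : ℝ := (2 * w + 1) * 2 ^ (p + 2) with hD
  have D0 : 0 < D := by positivity
  refine ⟨1 / (2 * K * D), by positivity, fun F b L k₀ A h0 hper hL H => ?_⟩
  set U : ℕ → ℝ := fun j => n₀ * 2 ^ j * max (b j) 0 ^ (2 * p + 2) with hU
  have U0 : ∀ j, 0 ≤ U j := fun j => mul_nonneg (by positivity) (pow_nonneg (le_max_right _ _) _)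
  set B : ℝ := max A 0 ^ (4 * (p + 1)) with hB
  have B0 : 0 ≤ B := pow_nonneg (le_max_right _ _) _
  set C : ℝ := n₀ * B / D + ∑ j ∈ range (k₀ + L), U j with hCd
  have T0 : 0 ≤ ∑ j ∈ range (k₀ + L), U j := sum_nonneg fun j _ => U0 j
  have C1 : n₀ * B / D ≤ C := le_add_of_nonneg_right T0
  have C0 : 0 ≤ C := le_trans (by positivity) C1
  refine ⟨C, fun ν hν k => ?_⟩
  have hb := fun k i => (h0 ν hν k i).2
  replace h0 := fun k i => (h0 ν hν k i).1
  replace hper := hper ν hν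
  replace H := H ν hν
  set S : ℕ → ℝ := fun k => ∑ i ∈ range (n₀ * 2 ^ k), ν k (i : ℕ) ^ (2 * p + 2) with hS
  have S0 : ∀ k, 0 ≤ S k := fun k => sum_nonneg fun i _ => pow_nonneg (h0 _ _) _
  have SU : ∀ j, S j ≤ U j := fun j => by
    refine (sum_le_card_nsmul _ _ (max (b j) 0 ^ (2 * p + 2)) fun i _ =>
      pow_le_pow_left₀ (h0 _ _) ((hb _ _).trans (le_max_left _ _)) _).trans ?_
    rw [card_range, nsmul_eq_mul, hU]
    push_cast
    exact le_rfl
  show S k ≤ C * 2 ^ k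
  induction k using Nat.strong_induction_on with
  | _ k' ih =>
  by_cases hk : k' < k₀ + L
  · have a : S k' ≤ ∑ j ∈ range (k₀ + L), U j :=
      (SU k').trans (single_le_sum (fun j _ => U0 j) (mem_range.2 hk))
    have b : C ≤ C * 2 ^ k' := le_mul_of_one_le_right C0 (one_le_pow₀ one_le_two)
    have c : 0 ≤ n₀ * B / D := by positivity
    linarith
  obtain ⟨k, rfl⟩ : ∃ k, k' = k + L := ⟨k' - L, by omega⟩
  set t : ℕ → ℤ → ℤ → ℝ := fun j m i =>
    (2 / 2 ^ (k - j)) ^ (p + 1) * ν j (i / 2 ^ (k - j) + m) ^ (2 * p + 2) with ht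
  have t0 : ∀ j m i, 0 ≤ t j m i := fun j m i => mul_nonneg (by positivity) (pow_nonneg (h0 _ _) _)
  set Z : ℤ → ℝ := fun i => B + ∑ j ∈ range (k + 1), ∑ m ∈ Icc (-(w : ℤ)) w, t j m i with hZ
  have ch : ∀ i : ℤ, ∑ m ∈ range (2 ^ L), ν (k + L) (i * 2 ^ L + (m : ℕ)) ^ (2 * p + 2) ≤
      2 ^ L / (2 * D) * Z i := by
    intro i
    have z1 : 0 ≤ ∑ j ∈ range (k + 1), ∑ m ∈ Icc (-(w : ℤ)) w, t j m i :=
      sum_nonneg fun j _ => sum_nonneg fun m _ => t0 j m i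
    have z0 : 0 ≤ Z i := add_nonneg B0 z1
    obtain ⟨M, M0, hM⟩ : ∃ M : ℝ, 0 ≤ M ∧ M ^ (4 * (p + 1)) = Z i :=
      ⟨_, Real.rpow_nonneg z0 _, Real.rpow_inv_natCast_pow z0 (by omega)⟩
    have a1 : max A 0 ≤ M := by
      refine le_of_pow_le_pow_left₀ (n := 4 * (p + 1)) (by omega) M0 ?_
      rw [hM]
      exact le_add_of_nonneg_right z1
    obtain ⟨b1, b2⟩ := H k (by omega) i M ((le_max_left _ _).trans a1) M0 fun j hj m hm => by
      rw [← div_le_iff₀ (by positivity)]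
      refine le_of_pow_le_pow_left₀ (n := p + 1) (by omega) (by positivity) ?_
      rw [← pow_mul, hM]
      have e : (2 * ν j (i / 2 ^ (k - j) + m) ^ 2 / 2 ^ (k - j)) ^ (p + 1) = t j m i := by
        rw [ht, mul_div_right_comm, mul_pow, ← pow_mul, mul_add, mul_one]
      rw [e]
      refine le_add_of_nonneg_of_le B0 ?_
      refine le_trans ?_ (single_le_sum (f := fun j => ∑ m ∈ Icc (-(w : ℤ)) w, t j m i)
        (fun j _ => sum_nonneg fun m _ => t0 j m i) (mem_range.2 (Nat.lt_succ_of_le hj)))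
      exact single_le_sum (f := fun m => t j m i) (fun m _ => t0 j m i) (Finset.mem_Icc.2 (abs_le.1 hm))
    calc _ ≤ ∑ m ∈ range (2 ^ L), (C₁ * M ^ 2) ^ (2 * p + 1) * ν (k + L) (i * 2 ^ L + (m : ℕ)) := by
          refine sum_le_sum fun m hm => ?_
          rw [pow_succ]
          exact mul_le_mul_of_nonneg_right
            (pow_le_pow_left₀ (h0 _ _) (b1 m (mem_range.1 hm)) _) (h0 _ _)
      _ ≤ (C₁ * M ^ 2) ^ (2 * p + 1) * (1 / (2 * K * D) * 2 ^ L * M ^ 2) := by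
          rw [← mul_sum]
          exact mul_le_mul_of_nonneg_left b2 (by positivity)
      _ = _ := by
          rw [← hM, mul_pow, ← hK]
          field_simp
          ring
  have st : ∀ j ∈ range (k + 1), ∀ m : ℤ, ∑ i ∈ range (n₀ * 2 ^ k), t j m (i : ℕ) ≤
      2 ^ (p + 1) * (C * 2 ^ k) * (1 / 2) ^ (k - j) := by
    intro j hj m
    have hj : j ≤ k := Nat.lt_succ_iff.1 (mem_range.1 hj)
    have e : n₀ * 2 ^ k = n₀ * 2 ^ j * 2 ^ (k - j) := by
      rw [mul_assoc, ← pow_add, Nat.add_sub_cancel' hj]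
    have a := parent (fun i => ν j i ^ (2 * p + 2)) (n₀ * 2 ^ j) (2 ^ (k - j))
      (fun i => by push_cast; rw [hper]) m
    push_cast at a
    rw [ht, ← mul_sum, e, a]
    have b : (2 : ℝ) ^ (k - j) * S j ≤ C * 2 ^ k := by
      calc _ ≤ (2 : ℝ) ^ (k - j) * (C * 2 ^ j) :=
            mul_le_mul_of_nonneg_left (ih j (by omega)) (by positivity)
        _ = _ := by rw [mul_left_comm, ← pow_add, Nat.sub_add_cancel hj]
    have c : ((2 : ℝ) / 2 ^ (k - j)) ^ (p + 1) ≤ 2 ^ (p + 1) * (1 / 2) ^ (k - j) := by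
      rw [div_eq_mul_one_div, mul_pow, ← one_div_pow]
      exact mul_le_mul_of_nonneg_left (pow_le_of_le_one (by positivity)
        (pow_le_one₀ (by norm_num) (by norm_num)) (by omega)) (by positivity)
    calc _ ≤ 2 ^ (p + 1) * (1 / 2) ^ (k - j) * (C * 2 ^ k) :=
          mul_le_mul c b (mul_nonneg (by positivity) (S0 j)) (by positivity)
      _ = _ := by ring
  have sz : ∑ i ∈ range (n₀ * 2 ^ k), Z (i : ℕ) ≤ 2 * D * (C * 2 ^ k) := by
    have a : ∑ i ∈ range (n₀ * 2 ^ k), ∑ j ∈ range (k + 1), ∑ m ∈ Icc (-(w : ℤ)) w, t j m (i : ℕ) ≤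
        D * (C * 2 ^ k) := by
      rw [sum_comm]
      calc _ ≤ ∑ j ∈ range (k + 1), (2 * w + 1) * (2 ^ (p + 1) * (C * 2 ^ k)) * (1 / 2 : ℝ) ^ (k - j) := by
            refine sum_le_sum fun j hj => ?_
            rw [sum_comm]
            refine (sum_le_sum fun m _ => st j hj m).trans ?_
            have e : (w : ℤ) + 1 - -(w : ℤ) = ((2 * w + 1 : ℕ) : ℤ) := by push_cast; ring
            rw [sum_const, Int.card_Icc, e, Int.toNat_natCast, nsmul_eq_mul]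
            push_cast
            exact le_of_eq (by ring)
        _ ≤ (2 * w + 1) * (2 ^ (p + 1) * (C * 2 ^ k)) * 2 := by
            rw [← mul_sum]
            exact mul_le_mul_of_nonneg_left (geo k) (by positivity)
        _ = _ := by rw [hD]; ring
    have b : (n₀ : ℝ) * B ≤ C * D := (div_le_iff₀ D0).1 C1
    have c : (n₀ : ℝ) * B * 2 ^ k ≤ C * D * 2 ^ k := by gcongr
    rw [hZ, sum_add_distrib, sum_const, card_range, nsmul_eq_mul]
    push_cast
    linarith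
  calc S (k + L) = ∑ i ∈ range (n₀ * 2 ^ k), ∑ m ∈ range (2 ^ L),
        ν (k + L) ((i : ℕ) * 2 ^ L + (m : ℕ)) ^ (2 * p + 2) := by
        rw [hS]
        simp only
        rw [pow_add, ← mul_assoc, block]
        push_cast
        rfl
    _ ≤ ∑ i ∈ range (n₀ * 2 ^ k), 2 ^ L / (2 * D) * Z (i : ℕ) := sum_le_sum fun i _ => ch i
    _ ≤ 2 ^ L / (2 * D) * (2 * D * (C * 2 ^ k)) := by
        rw [← mul_sum]
        exact mul_le_mul_of_nonneg_left sz (by positivity)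
    _ = _ := by
        field_simp
        ring

open FinF in
theorem finD (r : ℝ) (g Q : ℂ → ℂ) (n₀ : ℕ) (F : Set (ℝ → ℝ)) (h : GQ r g Q) (h8 : 8 ≤ r * n₀)
    (hW : ∀ a ∈ F, ∀ t, 1 ≤ a t) (hch : CHF r g Q (1 / (r * n₀)) F) (p : ℕ) :
    ∃ N : ℕ, 8 ≤ N ∧ MomP r g Q {a | a ∈ F ∧ Dec N a} p := by
  obtain ⟨C₁, hC₁, hCH⟩ := hch
  classical
  have hr := h.rpos
  have hn : 0 < n₀ := Nat.pos_of_ne_zero fun e => by
    rw [e] at h8
    norm_num at h8
  have hn' : (1 : ℝ) ≤ n₀ := by exact_mod_cast hn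
  choose Y hY hM using exists_max h hn
  obtain ⟨ν, hν⟩ : ∃ ν : ℕ → ℤ → ℝ, ∀ k i, ν k i = Gs g Q (Y k i) * (r - (Y k i).im) ^ 2 :=
    ⟨_, fun _ _ => rfl⟩
  simp only [← hν] at hM
  have hper := per h hn hY hM hν
  have ν0 : ∀ k i, 0 ≤ ν k i := fun k i => by rw [hν]; exact G0 _
  have τp : ∀ k : ℕ, 0 < r * (1 / 2 : ℝ) ^ k := fun k => by positivity
  have τm : ∀ j k : ℕ, j ≤ k → r * (1 / 2 : ℝ) ^ k ≤ r * (1 / 2) ^ j := fun j k jk =>
    mul_le_mul_of_nonneg_left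
      (pow_le_pow_of_le_one (a := (1 / 2 : ℝ)) (by norm_num) (by norm_num) jk) hr.le
  obtain ⟨ε, ε0, hR⟩ := rec1 n₀ ⌈2 * (r * n₀) + 2⌉₊ p (16 * C₁ ^ 2) (by nlinarith)
  obtain ⟨L, A, τ₀, hL, hτ₀, H⟩ := hCH (ε / (16 * C₁)) (by positivity)
  obtain ⟨k₀, hk₀⟩ := exists_pow_lt_of_lt_one (div_pos hτ₀ hr) (by norm_num : (1 / 2 : ℝ) < 1)
  refine ⟨8 * L, by omega, ?_⟩
  have dy : ∀ (N : ℕ) (a : ℝ → ℝ), Dec N a → ∀ j k : ℕ, j ≤ k →
      a (r * (1 / 2) ^ j) ^ N ≤ a (r * (1 / 2) ^ k) ^ N * 2 ^ (k - j) := by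
    intro N a ha j k jk
    have := ha _ _ (τp k) (τm j k jk)
    obtain ⟨d, rfl⟩ := Nat.exists_eq_add_of_le jk
    rw [Nat.add_sub_cancel_left]
    refine le_of_mul_le_mul_right (this.trans (le_of_eq ?_)) (τp (j + d))
    have : (1 / 2 : ℝ) ^ d * 2 ^ d = 1 := by rw [← mul_pow]; norm_num
    rw [pow_add (1 / 2 : ℝ)]
    linear_combination (-(a (r * ((1 / 2) ^ j * (1 / 2) ^ d)) ^ N * (r * (1 / 2) ^ j))) * this
  obtain ⟨C, hC⟩ := hR
    ((fun (a : ℝ → ℝ) (k : ℕ) (i : ℤ) => (ν k i / a (r * (1 / 2) ^ k) ^ 2) ^ 2) ''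
      {a | a ∈ F ∧ Dec (8 * L) a})
    (fun k => (∑ i ∈ Finset.range (n₀ * 2 ^ k), ν k (i : ℕ)) ^ 2) (2 * L) k₀ (max A 0 ^ 2)
    (by
      rintro _ ⟨a, ha, rfl⟩ k i'
      have a1 := hW a ha.1 (r * (1 / 2) ^ k)
      refine ⟨sq_nonneg _, pow_le_pow_left₀ (div_nonneg (ν0 _ _) (sq_nonneg _))
        ((div_le_self (ν0 _ _) (one_le_pow₀ a1)).trans ?_) 2⟩
      obtain ⟨i, i1, i2, -⟩ := red hn k (ν k) (hper k) i'
      rw [i2]
      exact Finset.single_le_sum (f := fun i : ℕ => ν k i) (fun j _ => ν0 _ _)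
        (Finset.mem_range.2 i1))
    (by
      rintro _ ⟨a, ha, rfl⟩ k i
      simp only [hper]) (by omega)
    (by
      rintro _ ⟨a, ⟨ha, hd⟩, rfl⟩ k hk i M' hA hM0 hc
      have τ0 := τp k
      obtain ⟨α, hα⟩ : ∃ α, α = a (r * (1 / 2) ^ k) := ⟨_, rfl⟩
      have α1 : 1 ≤ α := hα ▸ hW a ha _
      have α0 : 0 < α := by linarith
      have τ1 : r * (1 / 2 : ℝ) ^ k ≤ τ₀ := by
        rw [lt_div_iff₀' hr] at hk₀
        exact (τm _ _ hk).trans hk₀.le
      obtain ⟨M, M0, eM⟩ : ∃ M : ℝ, 0 ≤ M ∧ M ^ 2 = 2 * M' :=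
        ⟨√(2 * M'), Real.sqrt_nonneg _, Real.sq_sqrt (by linarith)⟩
      have AM : A ≤ M := (le_max_left A 0).trans
        (le_of_pow_le_pow_left₀ two_ne_zero M0 (by linarith))
      have d8 : Dec 8 a := hd.mono (hW a ha) (by omega)
      have cn := cone hr hn hM k i (M * α) fun j jk m hm => by
        have b0 := hc j jk m hm
        have c1 := hW a ha (r * (1 / 2) ^ j)
        have c2 := dy 8 a d8 j k jk
        rw [← hα] at c2
        simp only [] at b0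
        generalize a (r * (1 / 2) ^ j) = b at b0 c1 c2
        have x0 := ν0 j (i / 2 ^ (k - j) + m)
        generalize ν j (i / 2 ^ (k - j) + m) = x at b0 x0
        have T0 : (0 : ℝ) < 2 ^ (k - j) := by positivity
        generalize (2 : ℝ) ^ (k - j) = T at b0 c2 T0
        have b8 : 0 < b ^ 8 := by positivity
        have e : 2 * ((x / b ^ 2) ^ 2) ^ 2 = 2 * x ^ 4 / b ^ 8 := by field_simp
        rw [e, div_le_iff₀ b8] at b0
        refine le_of_pow_le_pow_left₀ two_ne_zero (by positivity) ?_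
        have e2 : ((M * α) ^ 4 * T) ^ 2 = 16 * (M' ^ 4 * T * (α ^ 8 * T)) := by
          have : M ^ 8 = 16 * M' ^ 4 := by
            rw [show M ^ 8 = (M ^ 2) ^ 4 by ring, eM]; ring
          calc _ = M ^ 8 * (α ^ 8 * T ^ 2) := by ring
            _ = _ := by rw [this]; ring
        have b1 : M' ^ 4 * T * b ^ 8 ≤ M' ^ 4 * T * (α ^ 8 * T) := by gcongr
        have b2 : 0 ≤ M' ^ 4 * T * (α ^ 8 * T) := by positivity
        rw [e2]
        nlinarith
      obtain ⟨s1, s2⟩ := H a ha _ _ (M * α) τ0 τ1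
        (by rw [← hα]; exact mul_le_mul_of_nonneg_right AM α0.le) cn
      obtain ⟨t1, t2⟩ := kids hr hn h8 hY hν k L i _ _ s1 s2
      obtain ⟨γ, hγ⟩ : ∃ γ, γ = a (r * (1 / 2) ^ (k + 2 * L)) := ⟨_, rfl⟩
      have γ1 : 1 ≤ γ := hγ ▸ hW a ha _
      have αm : α ^ 2 ≤ 2 * γ ^ 2 := by
        have c2 := dy _ a hd k (k + 2 * L) (Nat.le_add_right _ _)
        rw [← hα, ← hγ, Nat.add_sub_cancel_left] at c2
        refine le_of_pow_le_pow_left₀ (n := 4 * L) (by omega) (by positivity) ?_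
        calc _ = α ^ (8 * L) := by rw [← pow_mul]; congr 1; ring
          _ ≤ γ ^ (8 * L) * 2 ^ (2 * L) := c2
          _ ≤ γ ^ (8 * L) * 2 ^ (4 * L) := by gcongr; norm_num; omega
          _ = _ := by rw [mul_pow, ← pow_mul, mul_comm]; congr 2; ring
      have γ2 : 0 < γ ^ 2 := by positivity
      simp only [← hγ]
      have u1 : ∀ m < 2 ^ (2 * L), ν (k + 2 * L) (i * 2 ^ (2 * L) + (m : ℕ)) / γ ^ 2 ≤
          4 * C₁ * M' := fun m hm => by
        rw [div_le_iff₀ γ2]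
        refine (t1 m hm).trans ?_
        rw [mul_pow, eM]
        have : 0 ≤ C₁ * M' := by positivity
        nlinarith
      constructor
      · intro m hm
        refine (pow_le_pow_left₀ (div_nonneg (ν0 _ _) γ2.le) (u1 m hm) 2).trans (le_of_eq ?_)
        ring
      · calc _ ≤ ∑ m ∈ Finset.range (2 ^ (2 * L)),
              4 * C₁ * M' * (ν (k + 2 * L) (i * 2 ^ (2 * L) + (m : ℕ)) / γ ^ 2) := by
              refine Finset.sum_le_sum fun m hm => ?_
              rw [sq]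
              exact mul_le_mul_of_nonneg_right (u1 m (Finset.mem_range.1 hm))
                (div_nonneg (ν0 _ _) γ2.le)
          _ = 4 * C₁ * M' * ((∑ m ∈ Finset.range (2 ^ (2 * L)),
              ν (k + 2 * L) (i * 2 ^ (2 * L) + (m : ℕ))) / γ ^ 2) := by
              rw [← Finset.mul_sum, Finset.sum_div]
          _ ≤ 4 * C₁ * M' * (ε / (16 * C₁) * 4 ^ L * (4 * M')) := by
              gcongr
              rw [div_le_iff₀ γ2]
              refine t2.trans ?_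
              rw [mul_pow, eM]
              have : 0 ≤ ε / (16 * C₁) * 4 ^ L * M' := by positivity
              nlinarith
          _ = _ := by
              rw [show (4 : ℝ) ^ L = 2 ^ (2 * L) by rw [pow_mul]; norm_num]
              field_simp
              ring)
  refine ⟨C * 2 ^ (4 * p + 4), fun a ⟨ha, hd⟩ k l hl => ?_⟩
  replace hC := hC _ ⟨a, ⟨ha, hd⟩, rfl⟩ k
  obtain ⟨α, hα⟩ : ∃ α, α = a (r * (1 / 2) ^ k) := ⟨_, rfl⟩
  have α1 : 1 ≤ α := hα ▸ hW a ha _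
  simp only [← hα] at hC
  let J := (Finset.range (n₀ * 2 ^ k)).filter fun i : ℕ => l / 2 ≤ ν k i / α ^ 2
  refine ⟨J.image fun i : ℕ => i * hh n₀ k, ?_, fun y hy hv => ?_⟩
  · have a1 : (J.card : ℝ) * (l ^ p / 2 ^ (4 * p + 4)) ≤ C * 2 ^ k := by
      refine le_trans ?_ hC
      rw [← nsmul_eq_mul]
      refine (Finset.card_nsmul_le_sum J (fun i : ℕ => ((ν k i / α ^ 2) ^ 2) ^ (2 * p + 2)) _
        fun i hi => ?_).trans
        (Finset.sum_le_sum_of_subset_of_nonneg (Finset.filter_subset _ _) fun i _ _ =>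
          pow_nonneg (sq_nonneg _) _)
      rw [← pow_mul, show 2 * (2 * p + 2) = 4 * p + 4 by ring]
      refine le_trans ?_ (pow_le_pow_left₀ (by linarith) (Finset.mem_filter.1 hi).2 _)
      rw [div_pow]
      exact div_le_div_of_nonneg_right (pow_le_pow_right₀ hl (by omega)) (by positivity)
    have a2 : ((J.image fun i : ℕ => i * hh n₀ k).card : ℝ) ≤ J.card :=
      Nat.cast_le.2 Finset.card_image_le
    have a3 : (0 : ℝ) < l ^ p := by positivity
    rw [← mul_div_assoc, div_le_iff₀ (by positivity)] at a1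
    rw [le_div_iff₀ a3, one_div_pow, mul_one_div, div_mul_eq_mul_div, div_le_iff₀ (by positivity)]
    refine (mul_le_mul_of_nonneg_right a2 a3.le).trans (a1.trans (le_of_eq (by ring)))
  · obtain ⟨y', e1, e2, e3⟩ : ∃ y' : ℂ, y'.re = y.re ∧ y'.im = |y.im| ∧ Gs g Q y' = Gs g Q y := by
      rcases le_total 0 y.im with e | e
      · exact ⟨y, rfl, (abs_of_nonneg e).symm, rfl⟩
      · exact ⟨(starRingEnd ℂ) y, rfl, by rw [abs_of_nonpos e, Complex.conj_im], h.sym y hy.1⟩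
    obtain ⟨i', hi'⟩ := bx_round (k := k) (r := r) (y := y') hn (by rw [e2]; exact hv.1.le)
      (by rw [e2]; exact hv.2)
    have b1 := hM k i' y' hi'
    rw [e2, e3] at b1
    obtain ⟨i, b3, b5, b4⟩ := red hn k (ν k) (hper k) i'
    have t0 : 0 < r - |y.im| := (τp (k + 1)).trans hv.1
    have c1 : α ^ 2 ≤ 2 * a (r - |y.im|) ^ 2 := by
      have d2 : Dec 2 a := hd.mono (hW a ha) (by omega)
      have := d2 _ _ t0 hv.2
      rw [← hα] at this
      have v1 := hv.1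
      rw [pow_succ] at v1
      refine le_of_mul_le_mul_right (this.trans ?_) t0
      nlinarith [sq_nonneg (a (r - |y.im|))]
    have c2 : l / 2 ≤ ν k i / α ^ 2 := by
      rw [le_div_iff₀ (by positivity), ← b5]
      refine le_trans ?_ (hy.2.trans b1)
      nlinarith
    refine ⟨i * hh n₀ k, Finset.mem_image.2 ⟨i, Finset.mem_filter.2 ⟨Finset.mem_range.2 b3, c2⟩,
      rfl⟩, i' / (n₀ * 2 ^ k), ?_⟩
    have b6 : (i' : ℝ) * hh n₀ k = i * hh n₀ k + (i' / (n₀ * 2 ^ k) : ℤ) := by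
      have := congrArg (Int.cast : ℤ → ℝ) b4
      rw [Int.cast_add, Int.cast_mul] at this
      rw [← this, add_mul, mul_assoc]
      push_cast
      rw [hh_one hn, mul_one]
    have b7 := hi'.2
    rw [e1, b6, add_comm, ← sub_sub] at b7
    exact b7.trans (div_le_self (by positivity) hn')

/-- **H2D** -/
theorem h2d : Spec_H2D := by
  intro r c τ₀ θ H Q m K m1 t0
  have G := gq0 r c θ H Q K
  have hr := K.rpos
  obtain ⟨n₀, hn⟩ := exists_nat_ge (8 / r)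
  have h8 : 8 ≤ r * n₀ := by rwa [div_le_iff₀' hr] at hn
  have l0 : 0 < 1 / (r * n₀) := by positivity
  have l1 : 1 / (r * n₀) ≤ 1 / 8 := one_div_le_one_div_of_le (by norm_num) h8
  obtain ⟨C₄, c₄, e₀, c4, c4', e0, A⟩ := tdb_of (lawq tay odd) (baseq pos har) (lxq har sd)
    (colq vint) (tdq har psum) K G l0 l1
  obtain ⟨C₁, c1, hS⟩ := sup1 vint ge C₄ c₄ c4 c4'
  refine finD r _ Q n₀ {a | Env0 (Rch θ H r) m τ₀ a} G h8 (fun a ha => ha.1) ⟨C₁, c1, fun ε ε0 => ?_⟩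
  obtain ⟨L, A₂, L1, hK⟩ := sumq vint ge C₄ c₄ C₁ ε m c4 c4' c1 ε0 m1
  obtain ⟨A₀, B, hS₀⟩ := sup0 vint ge C₄ c₄ m (2 ^ L) c4 c4' m1 Nat.one_le_two_pow
  obtain ⟨A₁, hS⟩ := hS m (2 ^ L) B m1 Nat.one_le_two_pow
  refine ⟨L, max A₀ (max A₁ A₂), min (min (r / 4) τ₀) (e₀ / 4), L1,
    lt_min (lt_min (by positivity) t0) (by positivity), fun a ha ξ τ M τ0 τ1 hM hc => ?_⟩
  have a1 := τ1.trans ((min_le_left _ _).trans (min_le_left _ _))
  have a2 := τ1.trans ((min_le_left _ _).trans (min_le_right _ _))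
  have a3 : 2 * τ < e₀ := by linarith [τ1.trans (min_le_right _ _)]
  have w := ha.1 τ
  have E := ha.2 τ τ0 a2
  have k : ∀ {x : ℝ}, x ≤ max A₀ (max A₁ A₂) → x * a τ ≤ M := fun hx => le_trans (by gcongr) hM
  have s := hS r _ e₀ ξ τ M _ _ Q _ G A E w τ0 a1 a3
    (k ((le_max_left _ _).trans (le_max_right _ _))) hc
    (hS₀ r _ e₀ ξ τ M _ _ Q _ G A E w τ0 a1 a3 (k (le_max_left _ _)) hc)
  exact ⟨s, hK r _ e₀ ξ τ M _ _ Q _ G l0 l1 A E w τ0 a1 a3
    (k ((le_max_right _ _).trans (le_max_right _ _))) hc s⟩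

open GoodH in
/-- most translates are good, from one moment -/
theorem good1 (r : ℝ) (g Q : ℂ → ℂ) (F : Set (ℝ → ℝ)) (hr : 0 < r) (hF : ∀ a ∈ F, ∀ t, 1 ≤ a t)
    (j : ℕ) (hm : MomP r g Q F j) (ε : ℝ) (hj : 1 ≤ j) (hε : 0 < ε) :
    ∃ M : ℝ, 1 ≤ M ∧ ∀ a ∈ F, ∀ d : ℝ, 0 < d →
    ∃ B : Set ℝ, IsOpen B ∧ (∀ s, s + 1 ∈ B ↔ s ∈ B) ∧
      MeasureTheory.volume (B ∩ Ico 0 1) ≤ ENNReal.ofReal ε ∧ ∀ s ∉ B, Good r g Q a d j M s := by
  obtain ⟨C, hC⟩ := hm
  have C0 := abs_nonneg C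
  set M : ℝ := 8 + 96 * (2 * r + 1) * |C| / ε with hM
  have M8 : 8 ≤ M := by
    have : 0 ≤ 96 * (2 * r + 1) * |C| / ε := by positivity
    linarith
  have M0 : 0 < M := by linarith
  refine ⟨M, by linarith, fun a ha d hd => ?_⟩
  have z0 : 0 < r / d := div_pos hr hd
  have v0 : ∀ k : ℕ, 1 / 8 ≤ vv (r / d * (1 / 2) ^ k) := fun k => vv_ge (by positivity)
  have l1 : ∀ k i : ℕ, 1 ≤ M * vv (r / d * (1 / 2) ^ k) * 4 ^ i := fun k i => by
    have a1 : (1 : ℝ) ≤ 4 ^ i := one_le_pow₀ (by norm_num)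
    have a2 := mul_le_mul M8 (v0 k) (by norm_num) M0.le
    exact one_le_mul_of_one_le_of_one_le (by linarith) a1
  choose l l2 l3 using fun k i => root hj (l1 k i)
  choose I I1 I2 using fun k i => hC a ha k (l k i) (l2 k i)
  refine ⟨⋃ k : ℕ, ⋃ i : ℕ, ⋃ x ∈ I k i, ⋃ m : ℤ,
    ball (x + m) ((2 * r + 1) * 2 ^ i * (1 / 2) ^ k), ?_, fun s => ?_, ?_, fun s hs y y0 y1 => ?_⟩
  · exact isOpen_iUnion fun k => isOpen_iUnion fun i => isOpen_biUnion fun x _ =>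
      isOpen_iUnion fun m => isOpen_ball
  · simp only [mem_iUnion, mem_ball, Real.dist_eq]
    constructor
    · rintro ⟨k, i, x, hx, m, h⟩
      refine ⟨k, i, x, hx, m - 1, lt_of_eq_of_lt (congrArg _ ?_) h⟩
      push_cast
      ring
    · rintro ⟨k, i, x, hx, m, h⟩
      refine ⟨k, i, x, hx, m + 1, lt_of_eq_of_lt (congrArg _ ?_) h⟩
      push_cast
      ring
  · have K0 : 0 ≤ 2 * (2 * r + 1) * |C| / M := by positivity
    have w0 : ∀ k : ℕ, 0 < vv (r / d * (1 / 2) ^ k) := fun k => lt_of_lt_of_le (by norm_num) (v0 k)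
    refine cov (f := fun k => 2 * (2 * r + 1) * |C| / M * (1 / vv (r / d * (1 / 2) ^ k)) * 2)
      (fun k => by have := w0 k; positivity) (fun k => ?_) fun n => ?_
    · refine cov (f := fun i => 2 * (2 * r + 1) * |C| / M * (1 / vv (r / d * (1 / 2) ^ k)) *
        (1 / 2) ^ i) (fun i => by have := w0 k; positivity) (fun i => ?_) fun n => ?_
      · refine (fin _ _).trans (ENNReal.ofReal_le_ofReal ?_)
        have a1 := I1 k i
        rw [l3] at a1
        have a2 : C / (M * vv (r / d * (1 / 2) ^ k) * 4 ^ i) ≤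
            |C| / (M * vv (r / d * (1 / 2) ^ k) * 4 ^ i) :=
          div_le_div_of_nonneg_right (le_abs_self C) (by linarith [l1 k i])
        have a3 := mul_le_mul_of_nonneg_left (a1.trans a2)
          (show 0 ≤ 2 * (2 * r + 1) * (2 : ℝ) ^ i by positivity)
        refine le_trans (le_of_eq (by ring)) (a3.trans (le_of_eq ?_))
        have a4 : (4 : ℝ) ^ i = 2 ^ i * 2 ^ i := by rw [← mul_pow]; norm_num
        have a5 := w0 k
        generalize vv (r / d * (1 / 2) ^ k) = v at a5 ⊢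
        rw [a4, one_div_pow]
        field_simp
      · rw [← Finset.mul_sum]
        exact mul_le_mul_of_nonneg_left (sum_geometric_two_le n) (by have := w0 k; positivity)
    · rw [← Finset.sum_mul, ← Finset.mul_sum]
      have a1 := mul_le_mul_of_nonneg_left (vv_sum z0 n) K0
      have a2 : 96 * (2 * r + 1) * |C| / M ≤ ε := by
        have a4 : ε * M = ε * 8 + 96 * (2 * r + 1) * |C| := by
          rw [hM, mul_add, mul_div_cancel₀ _ hε.ne']
        rw [div_le_iff₀ M0]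
        linarith
      have a3 : 2 * (2 * r + 1) * |C| / M * 24 * 2 = 96 * (2 * r + 1) * |C| / M := by ring
      linarith
  · by_contra hn
    rw [not_le] at hn
    refine hs ?_
    have e0 : |y.im| = y.im := abs_of_nonneg y0
    have hy : |y.im| < r := by rwa [e0]
    obtain ⟨k, hk⟩ := P097K.exists_lv (y := y) hr hy
    obtain ⟨k1, k2⟩ := id hk
    rw [e0] at k1 k2
    have δ0 : (0 : ℝ) < (1 / 2) ^ k := by positivity
    have t0 : 0 < r - y.im := by linarith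
    have x0 : 0 ≤ |y.re - s| / (r * (1 / 2) ^ k) := by positivity
    obtain ⟨i, i1, i2⟩ := exists_nat_pow_near (x := 1 + |y.re - s| / (r * (1 / 2) ^ k))
      (y := (2 : ℝ)) (by linarith) (by norm_num)
    have b1 : (2 : ℝ) ^ i ≤ 1 + |y.re - s| / (r - y.im) :=
      i1.trans (by gcongr)
    have b2 : vv (r / d * (1 / 2) ^ k) ≤ max ((r - y.im) / d) (d / (r - y.im)) ^ 2 := by
      have e : r / d * (1 / 2) ^ k * d = r * (1 / 2) ^ k := by field_simp
      refine vv_le hd (by positivity) ?_ ?_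
      · rw [e]
        rw [pow_succ] at k1
        linarith
      · rw [e]
        exact k2
    have b3 : l k i ^ j < (Gs g Q y * (r - y.im) ^ 2 / a (r - y.im) ^ 2) ^ j := by
      refine lt_of_le_of_lt ?_ hn
      rw [l3, mul_assoc, mul_pow]
      refine mul_le_mul_of_nonneg_left (mul_le_mul b2 ?_ (by positivity) (by positivity)) M0.le
      have a4 : (4 : ℝ) ^ i = (2 ^ i) ^ 2 := by rw [← pow_mul, mul_comm, pow_mul]; norm_num
      rw [a4]
      exact pow_le_pow_left₀ (by positivity) b1 2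
    have G0 : 0 ≤ Gs g Q y := by unfold Gs; positivity
    have b4 := lt_of_pow_lt_pow_left₀ j (by positivity) b3
    have a0 : 0 < a (r - y.im) := lt_of_lt_of_le one_pos (hF a ha _)
    rw [lt_div_iff₀ (by positivity)] at b4
    obtain ⟨x, hx, m, h⟩ := I2 k i y ⟨hy, by rw [e0]; exact b4.le⟩ hk
    simp only [mem_iUnion, mem_ball, Real.dist_eq]
    refine ⟨k, i, x, hx, m, ?_⟩
    have c1 : |y.re - s| < 2 ^ (i + 1) * (r * (1 / 2) ^ k) := by
      rw [← div_lt_iff₀ (by positivity)]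
      linarith
    have c2 : (1 : ℝ) * (1 / 2) ^ k ≤ 2 ^ i * (1 / 2) ^ k :=
      mul_le_mul_of_nonneg_right (one_le_pow₀ (by norm_num)) δ0.le
    rw [pow_succ] at c1
    rw [abs_lt] at c1 ⊢
    rw [abs_le] at h
    constructor <;> nlinarith [c1.1, c1.2, h.1, h.2]

end Vale.Agent.P097W
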